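import Mathlib

/-!
# Ranked sets and square differences

`Rk M L s`: there is a finite set of residues `A ⊆ [0, M)` with `s` elements and a rank function with
values below `L` such that, whenever `a ≠ b` lie in `A` and the rank of `a` is at least that of `b`,
the difference `a - b` is not a square modulo `M`.
-/

namespace Vale.Agent.Lib.P042Rank

/-- existence of a ranked set of size `s` modulo `M` with `L` ranks -/
def Rk (M L s : ℕ) : Prop :=
  ∃ (A : Finset ℕ) (φ : ℕ → ℕ), (∀ a ∈ A, a < M) ∧ (∀ a ∈ A, φ a < L) ∧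
    (∀ a ∈ A, ∀ b ∈ A, a ≠ b → φ b ≤ φ a → ¬ IsSquare ((a : ZMod M) - (b : ZMod M))) ∧
    A.card = s

theorem Rk.mono {M L L' s : ℕ} (h : Rk M L s) (hL : L ≤ L') : Rk M L' s := by
  obtain ⟨A, φ, h1, h2, h3, h4⟩ := h
  exact ⟨A, φ, h1, fun a ha => lt_of_lt_of_le (h2 a ha) hL, h3, h4⟩

theorem rk_one : Rk 1 1 1 := by
  refine ⟨{0}, fun _ => 0, ?_, ?_, ?_, ?_⟩
  · intro a ha; simp at ha; omega
  · intro a ha; simp
  · intro a ha b hb hab; simp at ha hb; omega
  · simp

/-- product over coprime moduli: ranks add -/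
theorem Rk.prod {M M' L L' s s' : ℕ} (hM : 0 < M) (hM' : 0 < M') (co : Nat.Coprime M M')
    (h : Rk M L s) (h' : Rk M' L' s') : Rk (M * M') (L + L') (s * s') := by
  obtain ⟨A, φ, h1, h2, h3, h4⟩ := h
  obtain ⟨A', φ', h1', h2', h3', h4'⟩ := h'
  let f : ℕ × ℕ → ℕ := fun p => (Nat.chineseRemainder co p.1 p.2 : ℕ)
  have hf1 : ∀ p ∈ A ×ˢ A', f p % M = p.1 := by
    intro p hp
    have := (Nat.chineseRemainder co p.1 p.2).2.1
    rw [Finset.mem_product] at hp
    have h5 : f p % M = p.1 % M := this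
    rw [h5, Nat.mod_eq_of_lt (h1 _ hp.1)]
  have hf2 : ∀ p ∈ A ×ˢ A', f p % M' = p.2 := by
    intro p hp
    have := (Nat.chineseRemainder co p.1 p.2).2.2
    rw [Finset.mem_product] at hp
    have h5 : f p % M' = p.2 % M' := this
    rw [h5, Nat.mod_eq_of_lt (h1' _ hp.2)]
  have hlt : ∀ p, f p < M * M' := fun p =>
    Nat.chineseRemainder_lt_mul co p.1 p.2 (by omega) (by omega)
  refine ⟨(A ×ˢ A').image f, fun x => φ (x % M) + φ' (x % M'), ?_, ?_, ?_, ?_⟩
  · intro a ha
    obtain ⟨p, -, rfl⟩ := Finset.mem_image.1 ha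
    exact hlt p
  · intro a ha
    obtain ⟨p, hp, rfl⟩ := Finset.mem_image.1 ha
    simp only [hf1 p hp, hf2 p hp]
    rw [Finset.mem_product] at hp
    exact add_lt_add (h2 _ hp.1) (h2' _ hp.2)
  · intro x hx y hy hxy hr hsq
    obtain ⟨p, hp, rfl⟩ := Finset.mem_image.1 hx
    obtain ⟨q, hq, rfl⟩ := Finset.mem_image.1 hy
    simp only [hf1 p hp, hf2 p hp, hf1 q hq, hf2 q hq] at hr
    have hpq : p ≠ q := fun h => hxy (by rw [h])
    have key1 : IsSquare ((p.1 : ZMod M) - (q.1 : ZMod M)) := by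
      have := hsq.map (ZMod.castHom (Dvd.intro M' rfl : M ∣ M * M') (ZMod M))
      simp only [map_sub, map_natCast] at this
      have e1 : ((f p : ℕ) : ZMod M) = (p.1 : ZMod M) := by
        rw [← hf1 p hp]; simp
      have e2 : ((f q : ℕ) : ZMod M) = (q.1 : ZMod M) := by
        rw [← hf1 q hq]; simp
      rwa [e1, e2] at this
    have key2 : IsSquare ((p.2 : ZMod M') - (q.2 : ZMod M')) := by
      have := hsq.map (ZMod.castHom (Dvd.intro_left M rfl : M' ∣ M * M') (ZMod M'))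
      simp only [map_sub, map_natCast] at this
      have e1 : ((f p : ℕ) : ZMod M') = (p.2 : ZMod M') := by
        rw [← hf2 p hp]; simp
      have e2 : ((f q : ℕ) : ZMod M') = (q.2 : ZMod M') := by
        rw [← hf2 q hq]; simp
      rwa [e1, e2] at this
    rw [Finset.mem_product] at hp hq
    by_cases hA : p.1 = q.1
    · have hB : p.2 ≠ q.2 := fun h => hpq (Prod.ext hA h)
      rw [hA] at hr
      exact h3' _ hp.2 _ hq.2 hB (by omega) key2
    · by_cases hrk : φ q.1 ≤ φ p.1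
      · exact h3 _ hp.1 _ hq.1 hA hrk key1
      · have h6 : φ' q.2 ≤ φ' p.2 := by omega
        have hB : p.2 ≠ q.2 := by
          intro h; rw [h] at hr; omega
        exact h3' _ hp.2 _ hq.2 hB h6 key2
  · rw [Finset.card_image_of_injOn, Finset.card_product, h4, h4']
    intro p hp q hq hpq
    simp only [Finset.mem_coe] at hp hq
    apply Prod.ext
    · rw [← hf1 p hp, ← hf1 q hq, hpq]
    · rw [← hf2 p hp, ← hf2 q hq, hpq]

/-- lexicographic composition: the first modulus is a perfect square, ranks multiply -/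
theorem Rk.lex {m M' L L' s s' : ℕ} (hm : 0 < m)
    (h : Rk (m ^ 2) L s) (h' : Rk M' L' s') : Rk (m ^ 2 * M') (L * L') (s * s') := by
  obtain ⟨A, φ, h1, h2, h3, h4⟩ := h
  obtain ⟨A', φ', h1', h2', h3', h4'⟩ := h'
  have hM : 0 < m ^ 2 := by positivity
  let f : ℕ × ℕ → ℕ := fun p => p.1 + m ^ 2 * p.2
  have hf1 : ∀ p ∈ A ×ˢ A', f p % m ^ 2 = p.1 := by
    intro p hp
    rw [Finset.mem_product] at hp
    simp only [f]
    rw [Nat.add_mul_mod_self_left, Nat.mod_eq_of_lt (h1 _ hp.1)]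
  have hf2 : ∀ p ∈ A ×ˢ A', f p / m ^ 2 = p.2 := by
    intro p hp
    rw [Finset.mem_product] at hp
    simp only [f]
    rw [Nat.add_mul_div_left _ _ hM, Nat.div_eq_of_lt (h1 _ hp.1), zero_add]
  refine ⟨(A ×ˢ A').image f, fun x => φ (x % m ^ 2) * L' + φ' (x / m ^ 2), ?_, ?_, ?_, ?_⟩
  · intro a ha
    obtain ⟨p, hp, rfl⟩ := Finset.mem_image.1 ha
    rw [Finset.mem_product] at hp
    have a1 := h1 _ hp.1
    have a2 := h1' _ hp.2
    calc f p = p.1 + m ^ 2 * p.2 := rfl
      _ < m ^ 2 + m ^ 2 * p.2 := by omega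
      _ = m ^ 2 * (p.2 + 1) := by ring
      _ ≤ m ^ 2 * M' := Nat.mul_le_mul_left _ a2
  · intro a ha
    obtain ⟨p, hp, rfl⟩ := Finset.mem_image.1 ha
    simp only [hf1 p hp, hf2 p hp]
    rw [Finset.mem_product] at hp
    have a1 := h2 _ hp.1
    have a2 := h2' _ hp.2
    calc φ p.1 * L' + φ' p.2 < φ p.1 * L' + L' := by omega
      _ = (φ p.1 + 1) * L' := by ring
      _ ≤ L * L' := Nat.mul_le_mul_right _ a1
  · intro x hx y hy hxy hr hsq
    obtain ⟨p, hp, rfl⟩ := Finset.mem_image.1 hx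
    obtain ⟨q, hq, rfl⟩ := Finset.mem_image.1 hy
    simp only [hf1 p hp, hf2 p hp, hf1 q hq, hf2 q hq] at hr
    have hpq : p ≠ q := fun h => hxy (by rw [h])
    have hp' := hp
    have hq' := hq
    rw [Finset.mem_product] at hp hq
    by_cases hA : p.1 = q.1
    · have hB : p.2 ≠ q.2 := fun h => hpq (Prod.ext hA h)
      rw [hA] at hr
      refine h3' _ hp.2 _ hq.2 hB (by omega) ?_
      obtain ⟨z, hz⟩ := hsq
      obtain ⟨w, rfl⟩ := ZMod.intCast_surjective z
      have e1 : ((f p : ℕ) : ZMod (m ^ 2 * M')) - ((f q : ℕ) : ZMod (m ^ 2 * M'))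
          = (((m : ℤ) ^ 2 * ((p.2 : ℤ) - q.2) : ℤ) : ZMod (m ^ 2 * M')) := by
        simp only [f, hA]; push_cast; ring
      rw [e1] at hz
      have hz2 : (((m : ℤ) ^ 2 * ((p.2 : ℤ) - q.2) - w * w : ℤ) : ZMod (m ^ 2 * M')) = 0 := by
        rw [Int.cast_sub, hz, Int.cast_mul, sub_self]
      rw [ZMod.intCast_zmod_eq_zero_iff_dvd] at hz2
      obtain ⟨t, ht⟩ := hz2
      push_cast at ht
      have hw : (m : ℤ) ^ 2 ∣ w ^ 2 := by
        refine ⟨(p.2 : ℤ) - q.2 - M' * t, ?_⟩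
        linear_combination (-1 : ℤ) * ht
      have hw' : (m : ℤ) ∣ w := (Int.pow_dvd_pow_iff (by norm_num)).1 hw
      obtain ⟨u, rfl⟩ := hw'
      have hu : u * u = (p.2 : ℤ) - q.2 - M' * t := by
        have hm2 : (m : ℤ) ^ 2 ≠ 0 := by positivity
        apply mul_left_cancel₀ hm2
        linear_combination (-1 : ℤ) * ht
      refine ⟨(u : ZMod M'), ?_⟩
      have : ((u * u : ℤ) : ZMod M') = (((p.2 : ℤ) - q.2 - M' * t : ℤ) : ZMod M') := by rw [hu]
      push_cast at this
      rw [this]; simp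
    · have hrk : φ q.1 ≤ φ p.1 := by
        by_contra hlt
        push Not at hlt
        have a1 := h2' _ hp.2
        have : (φ p.1 + 1) * L' ≤ φ q.1 * L' := Nat.mul_le_mul_right _ hlt
        have e : (φ p.1 + 1) * L' = φ p.1 * L' + L' := by ring
        omega
      refine h3 _ hp.1 _ hq.1 hA hrk ?_
      have := hsq.map (ZMod.castHom (Dvd.intro M' rfl : m ^ 2 ∣ m ^ 2 * M') (ZMod (m ^ 2)))
      simp only [map_sub, map_natCast] at this
      have e1 : ((f p : ℕ) : ZMod (m ^ 2)) = (p.1 : ZMod (m ^ 2)) := by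
        rw [← hf1 p hp']; simp
      have e2 : ((f q : ℕ) : ZMod (m ^ 2)) = (q.1 : ZMod (m ^ 2)) := by
        rw [← hf1 q hq']; simp
      rwa [e1, e2] at this
  · rw [Finset.card_image_of_injOn, Finset.card_product, h4, h4']
    intro p hp q hq hpq
    simp only [Finset.mem_coe] at hp hq
    apply Prod.ext
    · rw [← hf1 p hp, ← hf1 q hq, hpq]
    · rw [← hf2 p hp, ← hf2 q hq, hpq]

theorem Rk.pow {m L s : ℕ} (hm : 0 < m) (h : Rk (m ^ 2) L s) (k : ℕ) :
    Rk ((m ^ 2) ^ k) (L ^ k) (s ^ k) := by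
  induction k with
  | zero => simpa using rk_one
  | succ k ih =>
    have := Rk.lex hm h ih
    rw [pow_succ' (m ^ 2) k, pow_succ' L k, pow_succ' s k]
    exact this

/-- digits at odd positions are free: from a ranked set modulo a squarefree `m` to one modulo `m²` -/
theorem Rk.free {m L s : ℕ} (hm : 0 < m) (hsf : Squarefree m) (h : Rk m L s) :
    Rk (m ^ 2) L (s * m) := by
  obtain ⟨A, φ, h1, h2, h3, h4⟩ := h
  let f : ℕ × ℕ → ℕ := fun p => p.1 + m * p.2
  have hf1 : ∀ p ∈ A ×ˢ Finset.range m, f p % m = p.1 := by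
    intro p hp
    rw [Finset.mem_product] at hp
    simp only [f]
    rw [Nat.add_mul_mod_self_left, Nat.mod_eq_of_lt (h1 _ hp.1)]
  have hf2 : ∀ p ∈ A ×ˢ Finset.range m, f p / m = p.2 := by
    intro p hp
    rw [Finset.mem_product] at hp
    simp only [f]
    rw [Nat.add_mul_div_left _ _ hm, Nat.div_eq_of_lt (h1 _ hp.1), zero_add]
  refine ⟨(A ×ˢ Finset.range m).image f, fun x => φ (x % m), ?_, ?_, ?_, ?_⟩
  · intro a ha
    obtain ⟨p, hp, rfl⟩ := Finset.mem_image.1 ha
    rw [Finset.mem_product, Finset.mem_range] at hp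
    have a1 := h1 _ hp.1
    have a2 := hp.2
    calc f p = p.1 + m * p.2 := rfl
      _ < m + m * p.2 := by omega
      _ = m * (p.2 + 1) := by ring
      _ ≤ m * m := Nat.mul_le_mul_left _ a2
      _ = m ^ 2 := by ring
  · intro a ha
    obtain ⟨p, hp, rfl⟩ := Finset.mem_image.1 ha
    simp only [hf1 p hp]
    rw [Finset.mem_product] at hp
    exact h2 _ hp.1
  · intro x hx y hy hxy hr hsq
    obtain ⟨p, hp, rfl⟩ := Finset.mem_image.1 hx
    obtain ⟨q, hq, rfl⟩ := Finset.mem_image.1 hy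
    simp only [hf1 p hp, hf1 q hq] at hr
    have hpq : p ≠ q := fun h => hxy (by rw [h])
    have hp' := hp
    have hq' := hq
    rw [Finset.mem_product, Finset.mem_range] at hp hq
    by_cases hA : p.1 = q.1
    · have hB : p.2 ≠ q.2 := fun h => hpq (Prod.ext hA h)
      obtain ⟨z, hz⟩ := hsq
      obtain ⟨w, rfl⟩ := ZMod.intCast_surjective z
      have e1 : ((f p : ℕ) : ZMod (m ^ 2)) - ((f q : ℕ) : ZMod (m ^ 2))
          = (((m : ℤ) * ((p.2 : ℤ) - q.2) : ℤ) : ZMod (m ^ 2)) := by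
        simp only [f, hA]; push_cast; ring
      rw [e1] at hz
      have hz2 : (((m : ℤ) * ((p.2 : ℤ) - q.2) - w * w : ℤ) : ZMod (m ^ 2)) = 0 := by
        rw [Int.cast_sub, hz, Int.cast_mul, sub_self]
      rw [ZMod.intCast_zmod_eq_zero_iff_dvd] at hz2
      obtain ⟨t, ht⟩ := hz2
      push_cast at ht
      have hw : (m : ℤ) ∣ w ^ 2 := by
        refine ⟨(p.2 : ℤ) - q.2 - m * t, ?_⟩
        linear_combination (-1 : ℤ) * ht
      have hsf' : Squarefree (m : ℤ) := Int.squarefree_natCast.2 hsf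
      have hw' : (m : ℤ) ∣ w := (hsf'.dvd_pow_iff_dvd (by norm_num)).1 hw
      obtain ⟨u, rfl⟩ := hw'
      have hu : (m : ℤ) * (u * u + t) = (p.2 : ℤ) - q.2 := by
        have hm2 : (m : ℤ) ≠ 0 := by positivity
        apply mul_left_cancel₀ hm2
        linear_combination (-1 : ℤ) * ht
      have hd : (m : ℤ) ∣ (p.2 : ℤ) - q.2 := ⟨_, hu.symm⟩
      have hc : (q.2 : ℤ) ≡ p.2 [ZMOD m] := Int.modEq_iff_dvd.2 hd
      have hc' : p.2 ≡ q.2 [MOD m] := ((Int.natCast_modEq_iff).1 hc).symm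
      exact hB (Nat.ModEq.eq_of_lt_of_lt hc' hp.2 hq.2)
    · refine h3 _ hp.1 _ hq.1 hA hr ?_
      have := hsq.map (ZMod.castHom (Dvd.intro_left m (by ring) : m ∣ m ^ 2) (ZMod m))
      simp only [map_sub, map_natCast] at this
      have e1 : ((f p : ℕ) : ZMod m) = (p.1 : ZMod m) := by
        rw [← hf1 p hp']; simp
      have e2 : ((f q : ℕ) : ZMod m) = (q.1 : ZMod m) := by
        rw [← hf1 q hq']; simp
      rwa [e1, e2] at this
  · rw [Finset.card_image_of_injOn, Finset.card_product, h4, Finset.card_range]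
    intro p hp q hq hpq
    simp only [Finset.mem_coe] at hp hq
    apply Prod.ext
    · rw [← hf1 p hp, ← hf1 q hq, hpq]
    · rw [← hf2 p hp, ← hf2 q hq, hpq]

/-- the archimedean step: a ranked set gives a set of integers without square differences -/
theorem Rk.toInt {M L s : ℕ} (h : Rk M L s) :
    ∃ A : Finset ℤ, A ⊆ Finset.Icc 1 ((M * L : ℕ) : ℤ) ∧
      (∀ a ∈ A, ∀ b ∈ A, ∀ n : ℕ, 1 ≤ n → a - b ≠ (n : ℤ) ^ 2) ∧ A.card = s := by
  obtain ⟨A, φ, h1, h2, h3, h4⟩ := h
  let f : ℕ → ℤ := fun a => ((a + M * φ a + 1 : ℕ) : ℤ)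
  have hinj : Set.InjOn f A := by
    intro a ha b hb hab
    simp only [Finset.mem_coe] at ha hb
    have e : a + M * φ a + 1 = b + M * φ b + 1 := by
      have : ((a + M * φ a + 1 : ℕ) : ℤ) = ((b + M * φ b + 1 : ℕ) : ℤ) := hab
      exact_mod_cast this
    have e' : a + M * φ a = b + M * φ b := by omega
    have : (a + M * φ a) % M = (b + M * φ b) % M := by rw [e']
    rw [Nat.add_mul_mod_self_left, Nat.add_mul_mod_self_left, Nat.mod_eq_of_lt (h1 a ha),
      Nat.mod_eq_of_lt (h1 b hb)] at this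
    exact this
  refine ⟨A.image f, ?_, ?_, ?_⟩
  · intro x hx
    obtain ⟨a, ha, rfl⟩ := Finset.mem_image.1 hx
    have a1 := h1 a ha
    have a2 := h2 a ha
    rw [Finset.mem_Icc]
    constructor
    · simp only [f]; push_cast; nlinarith [Int.natCast_nonneg a, Int.natCast_nonneg (M * φ a)]
    · have : a + M * φ a + 1 ≤ M * L := by
        calc a + M * φ a + 1 ≤ M + M * φ a := by omega
          _ = M * (φ a + 1) := by ring
          _ ≤ M * L := Nat.mul_le_mul_left _ a2
      simp only [f]; exact_mod_cast this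
  · intro x hx y hy n hn hxy
    obtain ⟨a, ha, rfl⟩ := Finset.mem_image.1 hx
    obtain ⟨b, hb, rfl⟩ := Finset.mem_image.1 hy
    have a1 := h1 a ha
    have b1 := h1 b hb
    have hpos : (0 : ℤ) < (n : ℤ) ^ 2 := by positivity
    have hab : a ≠ b := by
      rintro rfl
      rw [sub_self] at hxy
      omega
    have hlt : b + M * φ b < a + M * φ a := by
      have : ((b + M * φ b + 1 : ℕ) : ℤ) < ((a + M * φ a + 1 : ℕ) : ℤ) := by
        have : f a - f b > 0 := by rw [hxy]; exact hpos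
        simp only [f] at this
        omega
      have : b + M * φ b + 1 < a + M * φ a + 1 := by exact_mod_cast this
      omega
    have hrk : φ b ≤ φ a := by
      by_contra hc
      push Not at hc
      have : M * (φ a + 1) ≤ M * φ b := Nat.mul_le_mul_left _ hc
      have e : M * (φ a + 1) = M * φ a + M := by ring
      omega
    refine h3 a ha b hb hab hrk ⟨(n : ZMod M), ?_⟩
    have e : ((f a - f b : ℤ) : ZMod M) = (((n : ℤ) ^ 2 : ℤ) : ZMod M) := by rw [hxy]
    simp only [f] at e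
    push_cast at e
    rw [ZMod.natCast_self] at e
    rw [← sq, ← e]; ring
  · rw [Finset.card_image_of_injOn hinj, h4]

/-- powers of one component, with a common bound `B` for the number of ranks of a block -/
theorem Rk.block {m L s a B : ℕ} (hm : 0 < m) (h : Rk (m ^ 2) L s) (hB : L ^ a ≤ B) (n : ℕ) :
    Rk (((m ^ 2) ^ a) ^ n) (1 * B ^ n) ((s ^ a) ^ n) := by
  have h1 := Rk.pow hm h (a * n)
  rw [pow_mul, pow_mul, pow_mul] at h1
  refine h1.mono ?_
  rw [one_mul]
  exact Nat.pow_le_pow_left hB n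

theorem Rk.join {M₁ M₂ r₁ r₂ s₁ s₂ B : ℕ} (h₁ : ∀ n : ℕ, Rk (M₁ ^ n) (r₁ * B ^ n) (s₁ ^ n))
    (h₂ : ∀ n : ℕ, Rk (M₂ ^ n) (r₂ * B ^ n) (s₂ ^ n)) (hM₁ : 0 < M₁) (hM₂ : 0 < M₂)
    (co : Nat.Coprime M₁ M₂) (n : ℕ) :
    Rk ((M₁ * M₂) ^ n) ((r₁ + r₂) * B ^ n) ((s₁ * s₂) ^ n) := by
  have := Rk.prod (by positivity) (by positivity) (Nat.Coprime.pow n n co) (h₁ n) (h₂ n)
  rw [mul_pow, mul_pow, add_mul]
  exact this

/-- from ranked sets along a geometric sequence of moduli to a lower bound for every `N` -/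
theorem growth {Mt B St r p q : ℕ} (hr : 0 < r) (hX : 1 < Mt * B) (hSt : 0 < St) (hq : 0 < q)
    (H : ∀ n : ℕ, Rk (Mt ^ n) (r * B ^ n) (St ^ n)) (hineq : (Mt * B) ^ p ≤ St ^ q) :
    ∃ c : ℝ, 0 < c ∧ ∀ N : ℕ, 1 ≤ N → ∃ A : Finset ℤ, A ⊆ Finset.Icc 1 (N : ℤ) ∧
      (∀ a ∈ A, ∀ b ∈ A, ∀ n : ℕ, 1 ≤ n → a - b ≠ (n : ℤ) ^ 2) ∧
      c * (N : ℝ) ^ ((p : ℝ) / q) ≤ (A.card : ℝ) := by
  set X : ℕ := Mt * B with hXdef
  have hX0 : 0 < X := by omega
  set e : ℝ := (p : ℝ) / q with he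
  have he0 : 0 ≤ e := by positivity
  have hrX : (0 : ℝ) < (r : ℝ) * X := by positivity
  refine ⟨((r : ℝ) * X) ^ (-e), by positivity, ?_⟩
  intro N hN
  have hXe : (X : ℝ) ^ e ≤ St := by
    have h1 : ((X : ℝ) ^ e) ^ q ≤ (St : ℝ) ^ q := by
      rw [← Real.rpow_natCast ((X : ℝ) ^ e) q, ← Real.rpow_mul (by positivity), he]
      have hq' : (q : ℝ) ≠ 0 := by positivity
      rw [div_mul_cancel₀ _ hq', Real.rpow_natCast]
      exact_mod_cast hineq
    exact le_of_pow_le_pow_left₀ (by omega) (by positivity) h1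
  rcases lt_or_ge N r with hlt | hge
  · refine ⟨{1}, ?_, ?_, ?_⟩
    · intro x hx
      rw [Finset.mem_singleton] at hx
      subst hx
      rw [Finset.mem_Icc]
      exact ⟨le_refl _, by exact_mod_cast hN⟩
    · intro a ha b hb n hn
      rw [Finset.mem_singleton] at ha hb
      subst ha; subst hb
      rw [sub_self]
      have : (0 : ℤ) < (n : ℤ) ^ 2 := by positivity
      omega
    · rw [Finset.card_singleton, Nat.cast_one]
      have h1 : (N : ℝ) ^ e ≤ ((r : ℝ) * X) ^ e := by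
        apply Real.rpow_le_rpow (by positivity) _ he0
        have : N ≤ r * X := le_trans hlt.le (Nat.le_mul_of_pos_right r hX0)
        exact_mod_cast this
      calc ((r : ℝ) * X) ^ (-e) * (N : ℝ) ^ e ≤ ((r : ℝ) * X) ^ (-e) * ((r : ℝ) * X) ^ e :=
            mul_le_mul_of_nonneg_left h1 (by positivity)
        _ = 1 := by rw [← Real.rpow_add hrX]; simp
  · set n : ℕ := Nat.log X (N / r) with hn
    have hNr : N / r ≠ 0 := by
      have := Nat.div_pos hge hr
      omega
    have h1 : X ^ n ≤ N / r := Nat.pow_log_le_self X hNr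
    have h2 : N / r < X ^ (n + 1) := Nat.lt_pow_succ_log_self hX _
    have h3 : r * X ^ n ≤ N := by
      calc r * X ^ n ≤ r * (N / r) := Nat.mul_le_mul_left _ h1
        _ ≤ N := Nat.mul_div_le N r
    have h4 : N ≤ r * X ^ (n + 1) := by
      have : N < r * X ^ (n + 1) := by
        rw [mul_comm]
        exact (Nat.div_lt_iff_lt_mul hr).1 h2
      omega
    obtain ⟨A, hA1, hA2, hA3⟩ := (H n).toInt
    refine ⟨A, ?_, hA2, ?_⟩
    · refine hA1.trans (Finset.Icc_subset_Icc_right ?_)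
      have : Mt ^ n * (r * B ^ n) = r * X ^ n := by rw [hXdef, mul_pow]; ring
      rw [this]
      exact_mod_cast h3
    · rw [hA3]
      push_cast
      have h5 : (N : ℝ) ^ e ≤ ((r : ℝ) * X) ^ e * (St : ℝ) ^ n := by
        calc (N : ℝ) ^ e ≤ ((r : ℝ) * X ^ (n + 1)) ^ e := by
              apply Real.rpow_le_rpow (by positivity) _ he0
              exact_mod_cast h4
          _ = (((r : ℝ) * X) * X ^ n) ^ e := by ring_nf
          _ = ((r : ℝ) * X) ^ e * ((X : ℝ) ^ n) ^ e := Real.mul_rpow (by positivity) (by positivity)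
          _ = ((r : ℝ) * X) ^ e * ((X : ℝ) ^ e) ^ n := by
              rw [← Real.rpow_natCast (X : ℝ) n, ← Real.rpow_natCast ((X : ℝ) ^ e) n,
                ← Real.rpow_mul (by positivity), ← Real.rpow_mul (by positivity), mul_comm e]
          _ ≤ ((r : ℝ) * X) ^ e * (St : ℝ) ^ n := by
              apply mul_le_mul_of_nonneg_left _ (by positivity)
              exact pow_le_pow_left₀ (by positivity) hXe n
      calc ((r : ℝ) * X) ^ (-e) * (N : ℝ) ^ e
          ≤ ((r : ℝ) * X) ^ (-e) * (((r : ℝ) * X) ^ e * (St : ℝ) ^ n) :=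
            mul_le_mul_of_nonneg_left h5 (by positivity)
        _ = (St : ℝ) ^ n := by
            rw [← mul_assoc, ← Real.rpow_add hrX]; simp

/-- the rank of `a` in a list of levels -/
def lv (T : List (List ℕ)) (a : ℕ) : ℕ := T.findIdx (fun l => l.contains a)

/-- a computable test for ranked sets -/
def chkL (M n : ℕ) (F : List ℕ) (φ : ℕ → ℕ) : Bool :=
  F.all (fun a => decide (a < M) && decide (φ a < n) &&
    F.all (fun b => a == b || decide (φ a < φ b) ||
      (List.range M).all (fun x => (x * x) % M != (a + (M - b)) % M)))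

theorem rk_of_chkL {M n : ℕ} {F : List ℕ} {φ : ℕ → ℕ} (hT : F.Nodup) (h : chkL M n F φ = true) :
    Rk M n F.length := by
  have h' : ∀ a ∈ F, a < M ∧ φ a < n ∧ ∀ b ∈ F, a = b ∨ φ a < φ b ∨
      ∀ x < M, (x * x) % M ≠ (a + (M - b)) % M := by
    simpa [chkL, List.all_eq_true, and_assoc, or_assoc] using h
  refine ⟨F.toFinset, φ, ?_, ?_, ?_, ?_⟩
  · intro a ha
    exact (h' a (List.mem_toFinset.1 ha)).1
  · intro a ha
    exact (h' a (List.mem_toFinset.1 ha)).2.1
  · intro a ha b hb hab hr hsq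
    have ha' := List.mem_toFinset.1 ha
    have hb' := List.mem_toFinset.1 hb
    rcases (h' a ha').2.2 b hb' with h1 | h1 | h1
    · exact hab h1
    · omega
    · obtain ⟨z, hz⟩ := hsq
      have hbM : b < M := (h' b hb').1
      have hM0 : NeZero M := ⟨by omega⟩
      apply h1 z.val (ZMod.val_lt z)
      have h2 : ((z.val * z.val : ℕ) : ZMod M) = ((a + (M - b) : ℕ) : ZMod M) := by
        push_cast [Nat.cast_sub hbM.le]
        rw [ZMod.natCast_zmod_val, ← hz]
        simp [sub_eq_add_neg]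
      exact (ZMod.natCast_eq_natCast_iff' _ _ _).1 h2
  · rw [List.toFinset_card_of_nodup hT]

/-- the test for a set given by its list of levels -/
def chk (M : ℕ) (T : List (List ℕ)) : Bool := chkL M T.length T.flatten (lv T)

theorem rk_of_chk {M : ℕ} {T : List (List ℕ)} (hT : T.flatten.Nodup) (h : chk M T = true) :
    Rk M T.length T.flatten.length := rk_of_chkL hT h

end Vale.Agent.Lib.P042Rank
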